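import Vale.Agent.Lib.P310U.Defs
import Vale.Agent.Lib.P310T.Conv

/-!
# P310U: comparison with the definitions of `P310` and `P310T`
-/

namespace Vale.Agent.P310U

open Vale.Agent.P310

theorem conv_map_iff {α β : Type} [Fintype α] (f g : α → β) :
    (Finset.univ : Finset α).val.map f = (Finset.univ : Finset α).val.map g ↔
      ∃ σ : Equiv.Perm α, ∀ a, f a = g (σ a) := by
  classical
  constructor
  · intro h
    have h1 : ∀ b, Nonempty ({a : α // f a = b} ≃ {a : α // g a = b}) := by
      intro b
      refine Finite.card_eq.1 ?_
      rw [← Vale.Agent.P310T.count_univ_map, ← Vale.Agent.P310T.count_univ_map, h]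
    refine ⟨(Equiv.sigmaFiberEquiv f).symm.trans ((Equiv.sigmaCongrRight fun b => (h1 b).some).trans
      (Equiv.sigmaFiberEquiv g)), fun a => ?_⟩
    exact ((h1 (f a)).some ⟨a, rfl⟩).2.symm
  · rintro ⟨σ, h⟩
    have h2 : f = g ∘ σ := funext h
    rw [h2, ← Multiset.map_map, Multiset.map_univ_val_equiv]

theorem sameColour_iff {k n : ℕ} (G H : SimpleGraph (Fin n)) (r : ℕ) (x y : Fin k → Fin n) :
    SameColour G H r x y ↔ color G r x = color H r y := by
  induction r generalizing x y with
  | zero =>
    constructor
    · intro h
      funext i j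
      exact Prod.ext (propext (h i j).1) (propext (h i j).2)
    · intro h i j
      have h1 := congrFun (congrFun h i) j
      exact ⟨iff_of_eq (congrArg Prod.fst h1), iff_of_eq (congrArg Prod.snd h1)⟩
  | succ r ih =>
    have h1 : color G (r + 1) x = color H (r + 1) y ↔ color G r x = color H r y ∧
        ((Finset.univ : Finset (Fin n)).val.map fun v => fun i =>
          color G r (Function.update x i v)) =
        ((Finset.univ : Finset (Fin n)).val.map fun v => fun i =>
          color H r (Function.update y i v)) := Prod.ext_iff
    rw [h1, conv_map_iff, ← ih]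
    refine and_congr Iff.rfl (exists_congr fun σ => forall_congr' fun v => ?_)
    rw [funext_iff]
    exact forall_congr' fun i => ih _ _

theorem wlEquivalent_iff {k n : ℕ} (G H : SimpleGraph (Fin n)) :
    WLEquivalent k G H ↔ Vale.Agent.P310T.Equivalent k G H := by
  rw [Vale.Agent.P310T.equivalent_iff]
  refine forall_congr' fun r => ?_
  rw [conv_map_iff]
  exact exists_congr fun π => forall_congr' fun x => sameColour_iff G H r x (π x)

theorem rows_eq {n : ℕ} (G : SimpleGraph (Fin n)) : rows G = Vale.Agent.P310T.matrixWord G := by
  classical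
  rw [Vale.Agent.P310T.matrixWord_eq]
  unfold rows adjBits
  change ((List.finRange n).product (List.finRange n)).map _ = _
  unfold List.product
  rw [List.map_flatMap]
  simp only [List.map_map]
  rfl

end Vale.Agent.P310U
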