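import Mathlib

/-!
# P310: definitions of the statement `WLTime`

Weisfeiler-Leman equivalence by colour-preserving bijections, and multitape Turing machines whose
tapes are functions on the integers.
-/

namespace Vale.Agent.P310U

/-- `SameColour G H r x y`: the tuple `x ∈ V(G)^k` and the tuple `y ∈ V(H)^k` have the same colour
after `r` rounds, `C_r(x) = C_r(y)`.  For `r = 0`: the same pairs of entries are equal and the same
pairs of entries are adjacent.  For `r + 1`: the same colour after `r` rounds, and the multisets
`{{ (C_r(x[1 ← v]), …, C_r(x[k ← v])) : v ∈ V(G) }}` and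
`{{ (C_r(y[1 ← w]), …, C_r(y[k ← w])) : w ∈ V(H) }}` coincide, that is, some bijection
`σ : V(G) → V(H)` matches the `k`-tuples of colours of `v` and of `w = σ v`. -/
def SameColour {k n : ℕ} (G H : SimpleGraph (Fin n)) :
    ℕ → (Fin k → Fin n) → (Fin k → Fin n) → Prop
  | 0, x, y => ∀ i j, (x i = x j ↔ y i = y j) ∧ (G.Adj (x i) (x j) ↔ H.Adj (y i) (y j))
  | r + 1, x, y => SameColour G H r x y ∧ ∃ σ : Equiv.Perm (Fin n), ∀ v i,
      SameColour G H r (Function.update x i v) (Function.update y i (σ v))

/-- `G ≡_k H`: for every `r` the multisets of the colours after `r` rounds of all `k`-tuples of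
vertices of `G` and of `H` coincide, that is, some bijection `π : V(G)^k → V(H)^k` preserves the
colour after `r` rounds. -/
def WLEquivalent (k : ℕ) {n : ℕ} (G H : SimpleGraph (Fin n)) : Prop :=
  ∀ r : ℕ, ∃ π : Equiv.Perm (Fin k → Fin n), ∀ x, SameColour G H r x (π x)

/-- A deterministic Turing machine with `d + 1` two-way infinite tapes, finitely many states and
finitely many tape symbols.  `δ q a` is the instruction in state `q` when the head of tape `i` scans
the symbol `a i`: `none` means halt, otherwise the new state and, for each tape, the symbol to be
written and the move of the head (`-1`, `0` or `1`). -/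
structure TM where
  d : ℕ
  State : Type
  Symbol : Type
  finState : Finite State
  finSymbol : Finite Symbol
  start : State
  blank : Symbol
  /-- the symbols for the input bits -/
  bit : Bool → Symbol
  δ : State → (Fin (d + 1) → Symbol) → Option (State × (Fin (d + 1) → Symbol × SignType))
  /-- the accepting states -/
  accept : Set State

/-- A configuration: the state, the positions of the heads and the contents of the tapes. -/
structure Config (A : TM) where
  state : A.State
  pos : Fin (A.d + 1) → ℤ
  tape : Fin (A.d + 1) → ℤ → A.Symbol

/-- One step (`none` if the machine halts). -/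
def TM.step (A : TM) (c : Config A) : Option (Config A) :=
  (A.δ c.state fun i => c.tape i (c.pos i)).map fun p =>
    { state := p.1
      pos := fun i => c.pos i + ((p.2 i).2 : ℤ)
      tape := fun i => Function.update (c.tape i) (c.pos i) (p.2 i).1 }

/-- The initial configuration: the input word `w` in the cells `0, 1, …` of tape `0`, all other
cells blank, all heads on cell `0`. -/
def TM.init (A : TM) (w : List Bool) : Config A where
  state := A.start
  pos := fun _ => 0
  tape := fun i z => if i = 0 ∧ 0 ≤ z then (w.map A.bit).getD z.toNat A.blank else A.blank

open Classical in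
/-- The adjacency matrix of a graph, row by row. -/
noncomputable def rows {n : ℕ} (G : SimpleGraph (Fin n)) : List Bool :=
  (List.finRange n ×ˢ List.finRange n).map fun p => decide (G.Adj p.1 p.2)

/-- The deterministic algorithm `A` decides `≡_k`, and its running time on pairs of graphs with `n`
vertices each is at most `T n`: started on the adjacency matrices of `G` and `H` it halts after
`t ≤ T n` steps, in an accepting state if and only if `G ≡_k H`. -/
def Decides (A : TM) (k : ℕ) (T : ℕ → ℕ) : Prop :=
  ∀ (n : ℕ) (G H : SimpleGraph (Fin n)), ∃ t ≤ T n, ∃ c : Config A,
    (fun o => o.bind A.step)^[t] (some (A.init (rows G ++ rows H))) = some c ∧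
      A.step c = none ∧ (c.state ∈ A.accept ↔ WLEquivalent k G H)

end Vale.Agent.P310U
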