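import Vale.Agent.Lib.P310U.Conv
import Vale.Agent.Lib.P310T.Final

/-!
# P310U: the machines of `P310U` are simulated step by step by the machines of `P310T`
-/

namespace Vale.Agent.P310U

open Filter Topology

/-- the direction of a move -/
def dirOf : SignType → Option Turing.Dir
  | SignType.zero => none
  | SignType.neg => some Turing.Dir.left
  | SignType.pos => some Turing.Dir.right

theorem act_nth {Γ : Type} [Inhabited Γ] (T : Turing.Tape Γ) (f : ℤ → Γ) (pos : ℤ)
    (h : ∀ z, T.nth z = f (z + pos)) (a : Γ) (s : SignType) (z : ℤ) :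
    (Vale.Agent.P310T.act (a, dirOf s) T).nth z =
      Function.update f pos a (z + (pos + (s : ℤ))) := by
  have key : ∀ z : ℤ, (T.write a).nth z = Function.update f pos a (z + pos) := by
    intro z
    rw [Turing.Tape.write_nth, Function.update_apply, h z]
    by_cases hz : z = 0
    · simp [hz]
    · rw [if_neg hz, if_neg (by omega)]
  rcases s with _ | _ | _
  · change (T.write a).nth z = Function.update f pos a (z + (pos + ((0 : SignType) : ℤ)))
    rw [key, SignType.coe_zero, add_zero]
  · change ((T.write a).move Turing.Dir.left).nth z =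
      Function.update f pos a (z + (pos + ((-1 : SignType) : ℤ)))
    rw [Turing.Tape.move_left_nth, key, SignType.coe_neg_one]
    congr 1
    ring
  · change ((T.write a).move Turing.Dir.right).nth z =
      Function.update f pos a (z + (pos + ((1 : SignType) : ℤ)))
    rw [Turing.Tape.move_right_nth, key, SignType.coe_one]
    congr 1
    ring

theorem mk_nth {Γ : Type} [Inhabited Γ] (l : List Γ) (z : ℤ) :
    (Turing.Tape.mk₁ l).nth z = if 0 ≤ z then l.getD z.toNat default else default := by
  rcases lt_or_ge z 0 with hz | hz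
  · rw [if_neg (by omega)]
    obtain ⟨m, rfl⟩ : ∃ m : ℕ, z = -(m + 1 : ℕ) := ⟨(-z - 1).toNat, by omega⟩
    change (Turing.ListBlank.mk ([] : List Γ)).nth m = default
    rw [Turing.ListBlank.nth_mk]
    simp
  · obtain ⟨m, rfl⟩ := Int.eq_ofNat_of_zero_le hz
    rw [if_pos hz]
    unfold Turing.Tape.mk₁ Turing.Tape.mk₂
    rw [Turing.Tape.mk'_nth_nat, Turing.ListBlank.nth_mk, Int.toNat_natCast]
    rfl

open Classical in
/-- the simulating machine -/
noncomputable def toMachine (A : TM) : Vale.Agent.P310T.Machine where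
  extra := A.d
  Q := A.State ⊕ Bool
  Γ := A.Symbol
  finQ := by
    have := A.finState
    infer_instance
  finΓ := A.finSymbol
  blank := ⟨A.blank⟩
  start := Sum.inl A.start
  bit := A.bit
  verdict := Sum.elim (fun _ => none) some
  δ := fun q a => match q with
    | Sum.inr b => (Sum.inr b, fun i => (a i, none))
    | Sum.inl q => match A.δ q a with
      | none => (Sum.inr (decide (q ∈ A.accept)), fun i => (a i, none))
      | some p => (Sum.inl p.1, fun i => ((p.2 i).1, dirOf (p.2 i).2))

/-- corresponding configurations -/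
def Rel (A : TM) (c : Config A) (C : Vale.Agent.P310T.Config (toMachine A)) : Prop :=
  C.q = Sum.inl c.state ∧ ∀ i z, (C.tape i).nth z = c.tape i (z + c.pos i)

theorem rel_heads {A : TM} {c : Config A} {C : Vale.Agent.P310T.Config (toMachine A)}
    (h : Rel A c C) : (fun i => (C.tape i).head) = fun i => c.tape i (c.pos i) := by
  funext i
  have := h.2 i 0
  rw [zero_add] at this
  exact this

theorem rel_step {A : TM} {c c' : Config A} {C : Vale.Agent.P310T.Config (toMachine A)}
    (h : Rel A c C) (hc : A.step c = some c') : Rel A c' ((toMachine A).step C) := by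
  obtain ⟨p, hp, rfl⟩ := Option.map_eq_some_iff.1 hc
  have hq := h.1
  have hv : ((toMachine A).verdict C.q).isSome = false := by
    rw [hq]; rfl
  have h1 : (toMachine A).step C =
      { q := ((toMachine A).δ C.q fun i => (C.tape i).head).1
        tape := fun i => Vale.Agent.P310T.act
          (((toMachine A).δ C.q fun i => (C.tape i).head).2 i) (C.tape i) } := by
    unfold Vale.Agent.P310T.Machine.step
    rw [if_neg (by rw [hv]; exact Bool.false_ne_true)]
  have h2 : ((toMachine A).δ C.q fun i => (C.tape i).head) =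
      (Sum.inl p.1, fun i => ((p.2 i).1, dirOf (p.2 i).2)) := by
    rw [hq, rel_heads h]
    change (match A.δ c.state (fun i => c.tape i (c.pos i)) with
      | none => _
      | some p => _) = _
    rw [hp]
  rw [h1, h2]
  exact ⟨rfl, fun i z => @act_nth (toMachine A).Γ (toMachine A).blank (C.tape i) (c.tape i)
    (c.pos i) (h.2 i) (p.2 i).1 (p.2 i).2 z⟩

theorem rel_halt {A : TM} {c : Config A} {C : Vale.Agent.P310T.Config (toMachine A)}
    (h : Rel A c C) (hc : A.step c = none) :
    (toMachine A).verdict ((toMachine A).step C).q =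
      some (@decide (c.state ∈ A.accept) (Classical.propDecidable _)) := by
  have hp : A.δ c.state (fun i => c.tape i (c.pos i)) = none := Option.map_eq_none_iff.1 hc
  have hq := h.1
  have hv : ((toMachine A).verdict C.q).isSome = false := by
    rw [hq]; rfl
  have h1 : (toMachine A).step C =
      { q := ((toMachine A).δ C.q fun i => (C.tape i).head).1
        tape := fun i => Vale.Agent.P310T.act
          (((toMachine A).δ C.q fun i => (C.tape i).head).2 i) (C.tape i) } := by
    unfold Vale.Agent.P310T.Machine.step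
    rw [if_neg (by rw [hv]; exact Bool.false_ne_true)]
  have h2 : ((toMachine A).δ C.q fun i => (C.tape i).head).1 =
      Sum.inr (@decide (c.state ∈ A.accept) (Classical.propDecidable _)) := by
    rw [hq, rel_heads h]
    change (match A.δ c.state (fun i => c.tape i (c.pos i)) with
      | none => _
      | some p => _ : (A.State ⊕ Bool) × (Fin (A.d + 1) → A.Symbol × Option Turing.Dir)).1 = _
    rw [hp]
  rw [h1]
  simp only [h2]
  rfl

theorem rel_init (A : TM) (w : List Bool) : Rel A (A.init w) ((toMachine A).init w) := by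
  refine ⟨rfl, fun i z => ?_⟩
  change (@Turing.Tape.mk₁ (toMachine A).Γ (toMachine A).blank
    (if i = 0 then w.map A.bit else [])).nth z =
    if i = 0 ∧ 0 ≤ z + 0 then (w.map A.bit).getD (z + 0).toNat A.blank else A.blank
  rw [add_zero]
  refine (@mk_nth (toMachine A).Γ (toMachine A).blank _ z).trans ?_
  by_cases hi : i = 0
  · by_cases hz : 0 ≤ z
    · rw [if_pos hz, if_pos hi, if_pos ⟨hi, hz⟩]
      rfl
    · rw [if_neg hz, if_neg (fun h => hz h.2)]
      rfl
  · have e : ¬ (i = 0 ∧ 0 ≤ z) := fun h => hi h.1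
    rw [if_neg hi, if_neg e]
    by_cases hz : 0 ≤ z
    · rw [if_pos hz]
      rfl
    · rw [if_neg hz]
      rfl

theorem rel_run {A : TM} {w : List Bool} (t : ℕ) {c : Config A}
    (hc : (fun o => o.bind A.step)^[t] (some (A.init w)) = some c) :
    Rel A c ((toMachine A).step^[t] ((toMachine A).init w)) := by
  induction t generalizing c with
  | zero =>
    obtain rfl : A.init w = c := Option.some_injective _ hc
    exact rel_init A w
  | succ t ih =>
    rw [Function.iterate_succ_apply'] at hc
    obtain ⟨b, hb, hbc⟩ := Option.bind_eq_some_iff.1 hc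
    rw [Function.iterate_succ_apply']
    exact rel_step (ih hb) hbc

theorem run_eq (A : TM) {n : ℕ} (G H : SimpleGraph (Fin n)) (s : ℕ) :
    (toMachine A).run G H s = (toMachine A).step^[s] ((toMachine A).init (rows G ++ rows H)) := by
  rw [rows_eq, rows_eq]
  rfl

open Classical in
theorem run_verdict {A : TM} {k : ℕ} {T : ℕ → ℕ} (h : Decides A k T) {n : ℕ}
    (G H : SimpleGraph (Fin n)) : ∃ t ≤ T n, (toMachine A).verdict ((toMachine A).run G H (t + 1)).q =
      some (decide (Vale.Agent.P310T.Equivalent k G H)) := by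
  obtain ⟨t, ht, c, h1, h2, h3⟩ := h n G H
  refine ⟨t, ht, ?_⟩
  rw [run_eq, Function.iterate_succ_apply', rel_halt (rel_run t h1) h2]
  congr 1
  exact decide_eq_decide.2 (h3.trans (wlEquivalent_iff G H))

theorem decides {A : TM} {k : ℕ} {T : ℕ → ℕ} (h : Decides A k T) :
    Vale.Agent.P310T.Decides (toMachine A) k := fun n G H => by
  obtain ⟨t, -, ht⟩ := run_verdict h G H
  exact ⟨t + 1, ht⟩

theorem runningTime_le {A : TM} {k : ℕ} {T : ℕ → ℕ} (h : Decides A k T) (n : ℕ) :
    Vale.Agent.P310T.runningTime (toMachine A) n ≤ T n + 1 := by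
  refine Nat.sInf_le fun G H => ?_
  obtain ⟨t, ht, h1⟩ := run_verdict h G H
  have h2 : ((toMachine A).verdict ((toMachine A).run G H (t + 1)).q).isSome := by
    rw [h1]; rfl
  rw [Vale.Agent.P310T.run_le (toMachine A) (by omega : t + 1 ≤ T n + 1) h2]
  exact h2

/-- the lower bound for all `k ≥ 2` -/
theorem lower {A : TM} {k : ℕ} {T : ℕ → ℕ} (h : Decides A k T) (hk : 2 ≤ k) :
    ∀ᶠ n : ℕ in atTop, (n : ℝ) ^ ((1 / 10 : ℝ) * k) ≤ T n := by
  obtain ⟨n₀, h0⟩ := Vale.Agent.P310T.lower_all (decides h) hk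
  have hk0 : (2 : ℝ) ≤ k := by exact_mod_cast hk
  have hd : (0 : ℝ) < k / 9 - (1 / 10) * k := by linarith
  have hT : Tendsto (fun n : ℕ => (n : ℝ) ^ ((k : ℝ) / 9 - (1 / 10) * k)) atTop atTop :=
    (tendsto_rpow_atTop hd).comp tendsto_natCast_atTop_atTop
  filter_upwards [eventually_ge_atTop n₀, hT.eventually (eventually_ge_atTop 2),
    eventually_gt_atTop 0] with n h1 h2 h3
  have hn0 : (1 : ℝ) ≤ n := by exact_mod_cast h3
  have h4 : (n : ℝ) ^ ((k : ℝ) / 9) =
      (n : ℝ) ^ ((k : ℝ) / 9 - (1 / 10) * k) * (n : ℝ) ^ ((1 / 10 : ℝ) * k) := by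
    rw [← Real.rpow_add (by linarith)]
    congr 1
    ring
  have h5 : (1 : ℝ) ≤ (n : ℝ) ^ ((1 / 10 : ℝ) * k) := Real.one_le_rpow hn0 (by positivity)
  have h6 := h0 n h1
  have h7 : (Vale.Agent.P310T.runningTime (toMachine A) n : ℝ) ≤ T n + 1 := by
    exact_mod_cast runningTime_le h n
  rw [h4] at h6
  nlinarith

/-- no exponent `o(k)` is possible -/
theorem no_small {g : ℕ → ℝ} (hg : Tendsto (fun k : ℕ => g k / k) atTop (𝓝 0))
    (h : ∀ k ≥ 2, ∃ (A : TM) (T : ℕ → ℕ), Decides A k T ∧
      (fun n => (T n : ℝ)) =O[atTop] fun n : ℕ => (n : ℝ) ^ g k) : False := by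
  have h1 : ∀ᶠ k : ℕ in atTop, g k / k < 1 / 20 :=
    hg.eventually (gt_mem_nhds (by norm_num))
  obtain ⟨k, hk1, hk2⟩ := (h1.and (eventually_ge_atTop 2)).exists
  obtain ⟨A, T, hA, hO⟩ := h k hk2
  have hk0 : (2 : ℝ) ≤ k := by exact_mod_cast hk2
  have hgk : g k < 1 / 20 * k := by
    rwa [div_lt_iff₀ (by linarith)] at hk1
  obtain ⟨C, hC⟩ := hO.bound
  have hd : (0 : ℝ) < (1 / 10) * k - g k := by linarith
  have hT : Tendsto (fun n : ℕ => (n : ℝ) ^ ((1 / 10 : ℝ) * k - g k)) atTop atTop :=
    (tendsto_rpow_atTop hd).comp tendsto_natCast_atTop_atTop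
  obtain ⟨n, h2, h3, h4, h5⟩ := (hC.and ((lower hA hk2).and
    ((hT.eventually (eventually_gt_atTop C)).and (eventually_gt_atTop 0)))).exists
  have hn0 : (0 : ℝ) < n := by exact_mod_cast h5
  have hp : (0 : ℝ) < (n : ℝ) ^ g k := Real.rpow_pos_of_pos hn0 _
  rw [Real.norm_of_nonneg (Nat.cast_nonneg _), Real.norm_of_nonneg hp.le] at h2
  have h6 : (n : ℝ) ^ ((1 / 10 : ℝ) * k) =
      (n : ℝ) ^ ((1 / 10 : ℝ) * k - g k) * (n : ℝ) ^ g k := by
    rw [← Real.rpow_add hn0]
    congr 1
    ring
  rw [h6] at h3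
  have h7 := h3.trans h2
  have h8 := (mul_lt_mul_of_pos_right h4 hp)
  linarith

end Vale.Agent.P310U
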